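import Vale.Agent.P047.Junta

open Finset

namespace Vale.Agent.P047

variable {ι : Type} [Fintype ι] [DecidableEq ι]

/-- Evaluation under the product measure with `E x_i = δ`. -/
noncomputable def Eb (δ : ℝ) (F : Cube ι → ℝ) : ℝ :=
  ∑ x : Cube ι, (∏ i, (1 + δ * sgn (x i)) / 2) * F x

/-- The sum of the degree-one coefficients of a real function. -/
noncomputable def L1 (F : Cube ι → ℝ) : ℝ :=
  ∑ i, (∑ x : Cube ι, F x * sgn (x i)) / 2 ^ Fintype.card ι

theorem sum_units (h : ℤˣ → ℝ) : ∑ u : ℤˣ, h u = h 1 + h (-1) := by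
  have : (univ : Finset ℤˣ) = {1, -1} := rfl
  rw [this, sum_pair (by decide)]

theorem Eb_add (δ : ℝ) (F G : Cube ι → ℝ) : Eb δ (fun x => F x + G x) = Eb δ F + Eb δ G := by
  simp only [Eb, mul_add, Finset.sum_add_distrib]

theorem Eb_smul (δ c : ℝ) (F : Cube ι → ℝ) : Eb δ (fun x => c * F x) = c * Eb δ F := by
  simp only [Eb, Finset.mul_sum]
  exact Finset.sum_congr rfl fun x _ => by ring

theorem L1_add (F G : Cube ι → ℝ) : L1 (fun x => F x + G x) = L1 F + L1 G := by
  simp only [L1, add_mul, Finset.sum_add_distrib, add_div]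

theorem L1_smul (c : ℝ) (F : Cube ι → ℝ) : L1 (fun x => c * F x) = c * L1 F := by
  simp only [L1, Finset.mul_sum, mul_assoc]
  apply Finset.sum_congr rfl
  intro i _
  rw [← Finset.mul_sum, mul_div_assoc]

theorem prod_pn (P N : Finset ι) (hd : Disjoint P N) (a b : ℝ) :
    ∏ j, (if j ∈ P then a else if j ∈ N then b else 1) = a ^ P.card * b ^ N.card := by
  have h : ∀ j : ι, (if j ∈ P then a else if j ∈ N then b else 1) =
      (if j ∈ P then a else 1) * (if j ∈ N then b else 1) := by
    intro j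
    by_cases hP : j ∈ P
    · have : j ∉ N := Finset.disjoint_left.mp hd hP
      simp [hP, this]
    · simp [hP]
  rw [Finset.prod_congr rfl fun j _ => h j, Finset.prod_mul_distrib, Finset.prod_ite_mem,
    Finset.prod_ite_mem, Finset.univ_inter, Finset.univ_inter, Finset.prod_const,
    Finset.prod_const]

/-- The conjunction as a product over the coordinates. -/
theorem andf_prod (P N : Finset ι) (hd : Disjoint P N) (x : Cube ι) :
    andf P N x = ∏ j, (if j ∈ P then (1 + sgn (x j)) / 2 else if j ∈ N then (1 - sgn (x j)) / 2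
      else 1) := by
  have h : ∀ j : ι, (if j ∈ P then (1 + sgn (x j)) / 2 else if j ∈ N then (1 - sgn (x j)) / 2
      else 1) =
      (if j ∈ P then (1 + sgn (x j)) / 2 else 1) * (if j ∈ N then (1 - sgn (x j)) / 2 else 1) := by
    intro j
    by_cases hP : j ∈ P
    · have : j ∉ N := Finset.disjoint_left.mp hd hP
      simp [hP, this]
    · simp [hP]
  rw [andf_eq_prod, Finset.prod_congr rfl fun j _ => h j, Finset.prod_mul_distrib,
    Finset.prod_ite_mem, Finset.prod_ite_mem, Finset.univ_inter, Finset.univ_inter]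

theorem sgn_one : sgn 1 = 1 := by simp [sgn]
theorem sgn_neg_one : sgn (-1) = -1 := by simp [sgn]

theorem Eb_andf (δ : ℝ) (P N : Finset ι) (hd : Disjoint P N) :
    Eb δ (andf P N) = ((1 + δ) / 2) ^ P.card * ((1 - δ) / 2) ^ N.card := by
  rw [← prod_pn P N hd, Eb]
  have h : ∀ x : Cube ι, (∏ i, (1 + δ * sgn (x i)) / 2) * andf P N x =
      ∏ j, ((1 + δ * sgn (x j)) / 2 * (if j ∈ P then (1 + sgn (x j)) / 2 else
        if j ∈ N then (1 - sgn (x j)) / 2 else 1)) := by
    intro x
    rw [andf_prod P N hd, ← Finset.prod_mul_distrib]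
  rw [Finset.sum_congr rfl fun x _ => h x,
    sum_prod (fun j u => (1 + δ * sgn u) / 2 * (if j ∈ P then (1 + sgn u) / 2 else
        if j ∈ N then (1 - sgn u) / 2 else 1))]
  apply Finset.prod_congr rfl
  intro j _
  rw [sum_units, sgn_one, sgn_neg_one]
  by_cases hP : j ∈ P
  · simp only [hP, if_true]; ring
  · by_cases hN : j ∈ N
    · simp only [hP, hN, if_true, if_false]; ring
    · simp only [hP, hN, if_false]; ring

theorem L1_andf (P N : Finset ι) (hd : Disjoint P N) :
    L1 (andf P N) = (1 / 2) ^ P.card * (1 / 2) ^ N.card * ((P.card : ℝ) - N.card) := by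
  have key : ∀ i : ι, (∑ x : Cube ι, andf P N x * sgn (x i)) / 2 ^ Fintype.card ι =
      (1 / 2) ^ P.card * (1 / 2) ^ N.card *
        ((if i ∈ P then 1 else 0) - (if i ∈ N then 1 else 0)) := by
    intro i
    have h : ∀ x : Cube ι, andf P N x * sgn (x i) =
        ∏ j, ((if j ∈ P then (1 + sgn (x j)) / 2 else
          if j ∈ N then (1 - sgn (x j)) / 2 else 1) * (if j = i then sgn (x j) else 1)) := by
      intro x
      rw [andf_prod P N hd, Finset.prod_mul_distrib]
      congr 1
      rw [Finset.prod_ite_eq']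
      simp
    have h2 : (2 : ℝ) ^ Fintype.card ι = ∏ _j : ι, (2 : ℝ) := by
      rw [Finset.prod_const, Finset.card_univ]
    rw [Finset.sum_congr rfl fun x _ => h x,
      sum_prod (fun j u => (if j ∈ P then (1 + sgn u) / 2 else
          if j ∈ N then (1 - sgn u) / 2 else 1) * (if j = i then sgn u else 1)),
      h2, ← Finset.prod_div_distrib, ← prod_pn P N hd]
    rw [← Finset.mul_prod_erase univ _ (Finset.mem_univ i),
      ← Finset.mul_prod_erase univ (fun j => if j ∈ P then (1 / 2 : ℝ) else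
        if j ∈ N then 1 / 2 else 1) (Finset.mem_univ i)]
    have h3 : ∀ j ∈ univ.erase i, (∑ u : ℤˣ, (if j ∈ P then (1 + sgn u) / 2 else
          if j ∈ N then (1 - sgn u) / 2 else 1) * (if j = i then sgn u else 1)) / 2 =
        (if j ∈ P then (1 / 2 : ℝ) else if j ∈ N then 1 / 2 else 1) := by
      intro j hj
      have hji : j ≠ i := Finset.ne_of_mem_erase hj
      rw [sum_units, sgn_one, sgn_neg_one]
      by_cases hP : j ∈ P
      · simp only [hP, hji, if_true, if_false]; ring
      · by_cases hN : j ∈ N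
        · simp only [hP, hN, hji, if_true, if_false]; ring
        · simp only [hP, hN, hji, if_false]; ring
    rw [Finset.prod_congr rfl h3, sum_units, sgn_one, sgn_neg_one]
    by_cases hP : i ∈ P
    · have hN : i ∉ N := Finset.disjoint_left.mp hd hP
      simp only [hP, hN, if_true, if_false]; ring
    · by_cases hN : i ∈ N
      · simp only [hP, hN, if_true, if_false]; ring
      · simp only [hP, hN, if_true, if_false]; ring
  rw [L1, Finset.sum_congr rfl fun i _ => key i, ← Finset.mul_sum]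
  congr 1
  rw [Finset.sum_sub_distrib, Finset.sum_boole, Finset.sum_boole]
  simp

omit [Fintype ι] [DecidableEq ι] in
theorem andf_zero {P N : Finset ι} (hd : ¬ Disjoint P N) : (andf P N : Cube ι → ℝ) = fun _ => 0 := by
  funext x
  unfold andf
  rw [if_neg]
  rintro ⟨a, b⟩
  obtain ⟨i, hi, hj⟩ := Finset.not_disjoint_iff.mp hd
  have := (a i hi).symm.trans (b i hj)
  exact absurd this (by decide)

/-- The elementary inequality. -/
theorem width_ineq {d p q : ℕ} (h : p + q ≤ d) {δ : ℝ} (h0 : 0 < δ)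
    (h1 : δ ^ 2 = 1 / (2 * d + 2)) :
    (p : ℝ) - q ≤ 2 / δ * ((1 + δ) ^ p * (1 - δ) ^ q) := by
  have hd : (0 : ℝ) ≤ d := by positivity
  have hδ2 : δ ^ 2 ≤ 1 / 2 := by
    rw [h1]; apply one_div_le_one_div_of_le (by norm_num); linarith
  have hδ1 : δ ≤ 1 := by nlinarith
  have hpos : 0 ≤ 2 / δ * ((1 + δ) ^ p * (1 - δ) ^ q) := by
    have : 0 ≤ 1 - δ := by linarith
    positivity
  rcases le_total p q with hpq | hpq
  · have : (p : ℝ) ≤ q := by exact_mod_cast hpq
    linarith
  · obtain ⟨s, rfl⟩ := Nat.exists_eq_add_of_le hpq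
    have e : (1 + δ) ^ (q + s) * (1 - δ) ^ q = (1 - δ ^ 2) ^ q * (1 + δ) ^ s := by
      rw [pow_add, show (1 : ℝ) - δ ^ 2 = (1 + δ) * (1 - δ) by ring, mul_pow]; ring
    have hb1 : 1 / 2 ≤ (1 - δ ^ 2) ^ q := by
      have hB := one_add_mul_le_pow (a := -δ ^ 2) (by linarith) q
      have hq : (q : ℝ) ≤ d := by
        have : q ≤ d := by omega
        exact_mod_cast this
      have : (q : ℝ) * δ ^ 2 ≤ 1 / 2 := by
        rw [h1, mul_one_div, div_le_iff₀ (by positivity)]
        linarith
      have e2 : (1 - δ ^ 2) = 1 + -δ ^ 2 := by ring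
      rw [e2]
      linarith
    have hb2 : s * δ ≤ (1 + δ) ^ s := by
      have hB := one_add_mul_le_pow (a := δ) (by linarith) s
      linarith
    rw [e]
    have h3 : 1 / 2 * (s * δ) ≤ (1 - δ ^ 2) ^ q * (1 + δ) ^ s :=
      mul_le_mul hb1 hb2 (by positivity) (by linarith)
    have h4 : 2 / δ * (1 / 2 * (s * δ)) ≤ 2 / δ * ((1 - δ ^ 2) ^ q * (1 + δ) ^ s) :=
      mul_le_mul_of_nonneg_left h3 (by positivity)
    have h5 : 2 / δ * (1 / 2 * (s * δ)) = s := by field_simp
    push_cast
    linarith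

theorem junta_bound {d : ℕ} {F : Cube ι → ℝ} (hF : Junta d F) {δ : ℝ} (h0 : 0 < δ)
    (h1 : δ ^ 2 = 1 / (2 * d + 2)) : L1 F ≤ 2 / δ * Eb δ F := by
  induction hF with
  | base P N hw =>
    by_cases hd : Disjoint P N
    · rw [L1_andf P N hd, Eb_andf δ P N hd]
      have := width_ineq hw h0 h1
      have hW : (0 : ℝ) ≤ (1 / 2) ^ P.card * (1 / 2) ^ N.card := by positivity
      have h2 := mul_le_mul_of_nonneg_left this hW
      have e : (1 / 2 : ℝ) ^ P.card * (1 / 2) ^ N.card *
          (2 / δ * ((1 + δ) ^ P.card * (1 - δ) ^ N.card)) =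
          2 / δ * (((1 + δ) / 2) ^ P.card * ((1 - δ) / 2) ^ N.card) := by
        rw [show (1 + δ) / 2 = 1 / 2 * (1 + δ) by ring, show (1 - δ) / 2 = 1 / 2 * (1 - δ) by ring,
          mul_pow, mul_pow]
        ring
      rw [e] at h2
      exact h2
    · rw [andf_zero hd]
      simp [L1, Eb]
  | add F G _ _ ihF ihG =>
    rw [L1_add, Eb_add]; linarith
  | smul c F hc _ ih =>
    rw [L1_smul, Eb_smul]
    calc c * L1 F ≤ c * (2 / δ * Eb δ F) := mul_le_mul_of_nonneg_left ih hc
      _ = 2 / δ * (c * Eb δ F) := by ring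

theorem one_sided {d : ℕ} {f : Cube ι → ℤˣ} (hf : Junta d (fun x => (1 + sgn (f x)) / 2)) :
    lin f ≤ 4 * Real.sqrt (2 * d + 2) := by
  have hD : (0 : ℝ) < 2 * d + 2 := by positivity
  have hs : 0 < Real.sqrt (2 * d + 2) := Real.sqrt_pos.mpr hD
  obtain ⟨δ, hδ⟩ : ∃ δ : ℝ, δ = 1 / Real.sqrt (2 * d + 2) := ⟨_, rfl⟩
  have h0 : 0 < δ := by rw [hδ]; positivity
  have h1 : δ ^ 2 = 1 / (2 * d + 2) := by rw [hδ, div_pow, Real.sq_sqrt hD.le]; norm_num
  have hδ1 : δ ≤ 1 := by
    have : δ ^ 2 ≤ 1 := by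
      rw [h1, div_le_one hD]
      have : (0 : ℝ) ≤ d := by positivity
      linarith
    nlinarith
  have hb := junta_bound hf h0 h1
  have e1 : L1 (fun x => (1 + sgn (f x)) / 2) = lin f / 2 := by
    have : ∀ i : ι, (∑ x : Cube ι, (1 + sgn (f x)) / 2 * sgn (x i)) / 2 ^ Fintype.card ι =
        coeff f {i} / 2 := by
      intro i
      have h2 : ∑ x : Cube ι, (1 + sgn (f x)) / 2 * sgn (x i) =
          (∑ x : Cube ι, chi {i} x) / 2 + (∑ x : Cube ι, sgn (f x) * chi {i} x) / 2 := by
        rw [Finset.sum_div, Finset.sum_div, ← Finset.sum_add_distrib]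
        apply Finset.sum_congr rfl
        intro x _
        simp only [chi, Finset.prod_singleton]
        ring
      have h3 := sum_chi ({i} : Finset ι)
      rw [if_neg (Finset.singleton_ne_empty i), div_eq_zero_iff] at h3
      have h4 : ∑ x : Cube ι, chi {i} x = 0 := h3.resolve_right (by positivity)
      rw [h2, h4, coeff]; ring
    rw [L1, Finset.sum_congr rfl fun i _ => this i, lin, Finset.sum_div]
  have e2 : Eb δ (fun x => (1 + sgn (f x)) / 2) ≤ 1 := by
    have hle : ∀ x : Cube ι, (∏ i, (1 + δ * sgn (x i)) / 2) * ((1 + sgn (f x)) / 2) ≤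
        ∏ i, (1 + δ * sgn (x i)) / 2 := by
      intro x
      have hnn : 0 ≤ ∏ i, (1 + δ * sgn (x i)) / 2 := by
        apply Finset.prod_nonneg
        intro i _
        rcases Int.units_eq_one_or (x i) with h | h <;> rw [h]
        · rw [sgn_one]; linarith
        · rw [sgn_neg_one]; linarith
      have hf1 : (1 + sgn (f x)) / 2 ≤ 1 := by
        rcases Int.units_eq_one_or (f x) with h | h <;> rw [h]
        · rw [sgn_one]; norm_num
        · rw [sgn_neg_one]; norm_num
      exact mul_le_of_le_one_right hnn hf1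
    refine (Finset.sum_le_sum fun x _ => hle x).trans ?_
    rw [sum_prod (fun _ u => (1 + δ * sgn u) / 2)]
    apply le_of_eq
    apply Finset.prod_eq_one
    intro i _
    rw [sum_units, sgn_one, sgn_neg_one]; ring
  rw [e1] at hb
  have h5 : 2 / δ * Eb δ (fun x => (1 + sgn (f x)) / 2) ≤ 2 / δ * 1 :=
    mul_le_mul_of_nonneg_left e2 (by positivity)
  have h6 : 2 / δ = 2 * Real.sqrt (2 * d + 2) := by rw [hδ]; field_simp
  rw [h6] at h5 hb
  linarith

end Vale.Agent.P047
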