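import Vale.Agent.P047.Defs

open Finset

namespace Vale.Agent.P047

variable {ι κ : Type} [Fintype ι] [DecidableEq ι] [Fintype κ] [DecidableEq κ]

theorem sgn_mul_self (u : ℤˣ) : sgn u * sgn u = 1 := by
  rcases Int.units_eq_one_or u with h | h <;> simp [h, sgn]

theorem sgn_mul (u v : ℤˣ) : sgn (u * v) = sgn u * sgn v := by simp [sgn]

theorem sum_sgn : ∑ u : ℤˣ, sgn u = 0 := by
  have : (univ : Finset ℤˣ) = {1, -1} := rfl
  rw [this, sum_pair (by decide)]
  simp [sgn]

theorem card_units : Fintype.card ℤˣ = 2 := rfl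

theorem le_deg {f : Cube ι → ℤˣ} {S : Finset ι} (h : coeff f S ≠ 0) : S.card ≤ deg f := by
  classical
  unfold deg
  exact Finset.le_sup (f := Finset.card) (by simpa using h)

theorem deg_le {f : Cube ι → ℤˣ} {d : ℕ} (h : ∀ S, coeff f S ≠ 0 → S.card ≤ d) : deg f ≤ d := by
  classical
  unfold deg
  apply Finset.sup_le
  intro S hS
  exact h S (by simpa using hS)

/-- A sum over the cube of a product of functions of the single coordinates. -/
theorem sum_prod {α : Type} [Fintype α] [DecidableEq α] (h : ι → α → ℝ) :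
    ∑ x : ι → α, ∏ i, h i (x i) = ∏ i, ∑ a, h i a := by
  rw [Finset.prod_univ_sum, Fintype.piFinset_univ]

theorem chi_eq (S : Finset ι) (x : Cube ι) :
    chi S x = ∏ i, (if i ∈ S then sgn (x i) else 1) := by
  rw [chi, Finset.prod_ite_mem, Finset.univ_inter]

theorem sum_chi (S : Finset ι) :
    (∑ x : Cube ι, chi S x) / 2 ^ Fintype.card ι = if S = ∅ then 1 else 0 := by
  have h : ∑ x : Cube ι, chi S x = ∏ i, (if i ∈ S then (0 : ℝ) else 2) := by
    rw [Finset.sum_congr rfl fun x _ => chi_eq S x,
      sum_prod (fun i a => if i ∈ S then sgn a else 1)]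
    apply Finset.prod_congr rfl
    intro i _
    by_cases hi : i ∈ S
    · simp only [hi, if_true]; exact sum_sgn
    · simp [hi, card_units]
  rw [h]
  by_cases hS : S = ∅
  · simp [hS]
  · rw [if_neg hS]
    obtain ⟨i, hi⟩ := Finset.nonempty_iff_ne_empty.mpr hS
    rw [Finset.prod_eq_zero (Finset.mem_univ i) (by simp [hi])]
    simp

/-- Fourier inversion. -/
theorem inversion (f : Cube ι → ℤˣ) (y : Cube ι) : sgn (f y) = ∑ T, coeff f T * chi T y := by
  have h1 : ∀ x : Cube ι, ∑ T : Finset ι, chi T x * chi T y =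
      if x = y then 2 ^ Fintype.card ι else 0 := by
    intro x
    have : ∑ T : Finset ι, chi T x * chi T y = ∏ i, (1 + sgn (x i) * sgn (y i)) := by
      rw [Finset.prod_one_add, Finset.powerset_univ]
      apply Finset.sum_congr rfl
      intro T _
      rw [chi, chi, ← Finset.prod_mul_distrib]
    rw [this]
    by_cases hxy : x = y
    · rw [if_pos hxy, hxy]
      simp only [sgn_mul_self]
      norm_num
    · rw [if_neg hxy]
      obtain ⟨i, hi⟩ := Function.ne_iff.mp hxy
      apply Finset.prod_eq_zero (Finset.mem_univ i)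
      rcases Int.units_eq_one_or (x i) with h | h <;> rcases Int.units_eq_one_or (y i) with k | k
      · exact absurd (h.trans k.symm) hi
      · simp [h, k, sgn]
      · simp [h, k, sgn]
      · exact absurd (h.trans k.symm) hi
  have h2 : (2 : ℝ) ^ Fintype.card ι ≠ 0 := by positivity
  have h3 : ∑ T, coeff f T * chi T y =
      (∑ x : Cube ι, sgn (f x) * ∑ T : Finset ι, chi T x * chi T y) / 2 ^ Fintype.card ι := by
    simp only [coeff, Finset.mul_sum, Finset.sum_div, Finset.sum_mul]
    rw [Finset.sum_comm]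
    apply Finset.sum_congr rfl
    intro x _
    apply Finset.sum_congr rfl
    intro T _
    ring
  rw [h3]
  simp only [h1, mul_ite, mul_zero, Finset.sum_ite_eq', Finset.mem_univ, if_true]
  field_simp

/-- The composition of Boolean functions on disjoint sets of variables. -/
def comp (f : Cube ι → ℤˣ) (g : Cube κ → ℤˣ) : Cube (ι × κ) → ℤˣ :=
  fun x => f fun i => g fun j => x (i, j)

/-- The `i`-th slice of a set of variables. -/
def slice (U : Finset (ι × κ)) (i : ι) : Finset κ := univ.filter fun j => (i, j) ∈ U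

theorem chi_prod (U : Finset (ι × κ)) (x : Cube (ι × κ)) :
    chi U x = ∏ i, chi (slice U i) (fun j => x (i, j)) := by
  rw [chi_eq, Fintype.prod_prod_type]
  apply Finset.prod_congr rfl
  intro i _
  rw [chi_eq]
  apply Finset.prod_congr rfl
  intro j _
  simp [slice]

theorem coeff_comp (f : Cube ι → ℤˣ) (g : Cube κ → ℤˣ) (U : Finset (ι × κ)) :
    coeff (comp f g) U = ∑ T : Finset ι, coeff f T *
      ∏ i, (if i ∈ T then coeff g (slice U i) else if slice U i = ∅ then 1 else 0) := by
  have h1 : ∀ x : Cube (ι × κ), sgn (comp f g x) * chi U x =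
      ∑ T : Finset ι, coeff f T * ∏ i, ((if i ∈ T then sgn (g fun j => x (i, j)) else 1) *
        chi (slice U i) (fun j => x (i, j))) := by
    intro x
    rw [comp, inversion f, Finset.sum_mul]
    apply Finset.sum_congr rfl
    intro T _
    rw [chi_prod U x, chi_eq, mul_assoc, ← Finset.prod_mul_distrib]
  have h2 : ∀ T : Finset ι, ∑ x : Cube (ι × κ),
      ∏ i, ((if i ∈ T then sgn (g fun j => x (i, j)) else 1) *
        chi (slice U i) (fun j => x (i, j))) =
      ∏ i, ∑ z : Cube κ, ((if i ∈ T then sgn (g z) else 1) * chi (slice U i) z) := by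
    intro T
    rw [← sum_prod (fun i (z : Cube κ) => (if i ∈ T then sgn (g z) else 1) * chi (slice U i) z)]
    exact Fintype.sum_equiv (Equiv.curry ι κ ℤˣ) _ _ (fun x => rfl)
  rw [coeff, Finset.sum_congr rfl fun x _ => h1 x, Finset.sum_comm, Finset.sum_div]
  apply Finset.sum_congr rfl
  intro T _
  rw [← Finset.mul_sum, h2 T, mul_div_assoc]
  congr 1
  have h3 : (2 : ℝ) ^ Fintype.card (ι × κ) = ∏ _i : ι, (2 : ℝ) ^ Fintype.card κ := by
    rw [Finset.prod_const, Finset.card_univ, ← pow_mul, Fintype.card_prod, mul_comm]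
  rw [h3, ← Finset.prod_div_distrib]
  apply Finset.prod_congr rfl
  intro i _
  by_cases hi : i ∈ T
  · simp only [hi, if_true]; rfl
  · simp only [hi, if_false, one_mul]
    exact sum_chi _

theorem deg_comp (f : Cube ι → ℤˣ) (g : Cube κ → ℤˣ) : deg (comp f g) ≤ deg f * deg g := by
  apply deg_le
  intro U hU
  rw [coeff_comp] at hU
  obtain ⟨T, _, hT⟩ := Finset.exists_ne_zero_of_sum_ne_zero hU
  have hf : coeff f T ≠ 0 := left_ne_zero_of_mul hT
  have hg := Finset.prod_ne_zero_iff.mp (right_ne_zero_of_mul hT)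
  have hcard : U.card = ∑ i, (slice U i).card := by
    have h1 : U.card = ∑ p : ι × κ, if p ∈ U then 1 else 0 := by
      rw [Finset.sum_ite_mem, Finset.univ_inter, Finset.card_eq_sum_ones]
    rw [h1, Fintype.sum_prod_type]
    apply Finset.sum_congr rfl
    intro i _
    rw [slice, Finset.card_filter]
  have hle : ∀ i, (slice U i).card ≤ if i ∈ T then deg g else 0 := by
    intro i
    have := hg i (Finset.mem_univ i)
    by_cases hi : i ∈ T
    · simp only [hi, if_true] at this ⊢
      exact le_deg this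
    · simp only [hi, if_false] at this ⊢
      by_cases hs : slice U i = ∅
      · rw [hs]; simp
      · simp [hs] at this
  calc U.card = ∑ i, (slice U i).card := hcard
    _ ≤ ∑ i, if i ∈ T then deg g else 0 := Finset.sum_le_sum fun i _ => hle i
    _ = T.card * deg g := by
      rw [Finset.sum_ite_mem, Finset.univ_inter, Finset.sum_const, smul_eq_mul]
    _ ≤ deg f * deg g := Nat.mul_le_mul_right _ (le_deg hf)

theorem coeff_comp_empty (f : Cube ι → ℤˣ) (g : Cube κ → ℤˣ) (hf : coeff f ∅ = 0)
    (hg : coeff g ∅ = 0) : coeff (comp f g) ∅ = 0 := by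
  rw [coeff_comp]
  apply Finset.sum_eq_zero
  intro T _
  by_cases hT : T = ∅
  · rw [hT, hf, zero_mul]
  · obtain ⟨i, hi⟩ := Finset.nonempty_iff_ne_empty.mpr hT
    have : slice (∅ : Finset (ι × κ)) i = ∅ := by simp [slice]
    rw [Finset.prod_eq_zero (Finset.mem_univ i) (by simp only [hi, if_true, this, hg]), mul_zero]

theorem coeff_comp_single (f : Cube ι → ℤˣ) (g : Cube κ → ℤˣ) (hg : coeff g ∅ = 0) (i : ι)
    (j : κ) : coeff (comp f g) {(i, j)} = coeff f {i} * coeff g {j} := by
  have s1 : slice ({(i, j)} : Finset (ι × κ)) i = {j} := by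
    ext j'; simp [slice]
  have s2 : ∀ i', i' ≠ i → slice ({(i, j)} : Finset (ι × κ)) i' = ∅ := by
    intro i' hi'; ext j'; simp [slice, hi']
  rw [coeff_comp, Finset.sum_eq_single ({i} : Finset ι)]
  · congr 1
    rw [Finset.prod_eq_single i]
    · simp [s1]
    · intro i' _ hi'
      simp [hi', s2 i' hi']
    · simp
  · intro T _ hT
    by_cases hi : i ∈ T
    · have : ∃ i' ∈ T, i' ≠ i := by
        by_contra hc
        push Not at hc
        apply hT
        ext a
        constructor
        · intro ha; rw [Finset.mem_singleton]; exact hc a ha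
        · intro ha; rw [Finset.mem_singleton] at ha; rw [ha]; exact hi
      obtain ⟨i', hi', hne⟩ := this
      rw [Finset.prod_eq_zero (Finset.mem_univ i')
        (by simp only [hi', if_true, s2 i' hne, hg]), mul_zero]
    · rw [Finset.prod_eq_zero (Finset.mem_univ i) (by simp [hi, s1]), mul_zero]
  · simp

theorem lin_comp (f : Cube ι → ℤˣ) (g : Cube κ → ℤˣ) (hg : coeff g ∅ = 0) :
    lin (comp f g) = lin f * lin g := by
  rw [lin, Fintype.sum_prod_type, lin, lin, Finset.sum_mul_sum]
  apply Finset.sum_congr rfl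
  intro i _
  apply Finset.sum_congr rfl
  intro j _
  exact coeff_comp_single f g hg i j

end Vale.Agent.P047
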