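import Mathlib

open Finset

namespace Vale.Agent.P047

/-- The discrete cube `{-1,1}^ι`: sign vectors indexed by the finite set `ι` of variables. -/
abbrev Cube (ι : Type) : Type := ι → ℤˣ

/-- A sign as a real number. -/
def sgn (u : ℤˣ) : ℝ := ((u : ℤ) : ℝ)

/-- The character `∏_{i ∈ S} x_i`. -/
def chi {ι : Type} (S : Finset ι) (x : Cube ι) : ℝ := ∏ i ∈ S, sgn (x i)

/-- The Fourier coefficient `E[f(X) ∏_{i ∈ S} X_i]` of a Boolean function `f : {-1,1}^ι → {-1,1}`,
`X` uniform on the cube. -/
noncomputable def coeff {ι : Type} [Fintype ι] [DecidableEq ι] (f : Cube ι → ℤˣ) (S : Finset ι) :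
    ℝ :=
  (∑ x : Cube ι, sgn (f x) * chi S x) / 2 ^ Fintype.card ι

open Classical in
/-- The degree of `f`: the largest size of a set with nonzero Fourier coefficient. -/
noncomputable def deg {ι : Type} [Fintype ι] [DecidableEq ι] (f : Cube ι → ℤˣ) : ℕ :=
  (univ.filter fun S : Finset ι => coeff f S ≠ 0).sup Finset.card

/-- The sum of the degree-one Fourier coefficients. -/
noncomputable def lin {ι : Type} [Fintype ι] [DecidableEq ι] (f : Cube ι → ℤˣ) : ℝ :=
  ∑ i, coeff f {i}

/-- The weaker form of the Gopalan-Servedio conjecture: there is an absolute constant `C` such that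
the degree-one coefficients of every Boolean function sum to at most `C √(deg f)`. -/
def Weak : Prop :=
  ∃ C : ℝ, ∀ (ι : Type) [Fintype ι] [DecidableEq ι] (f : Cube ι → ℤˣ),
    lin f ≤ C * Real.sqrt (deg f)

end Vale.Agent.P047
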