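import Vale.Agent.P047.Width

open Finset

namespace Vale.Agent.P047

variable {ι : Type} [Fintype ι] [DecidableEq ι]

theorem root_lemma {b t C : ℝ} (ht : 0 ≤ t)
    (h : ∀ k : ℕ, b ^ (k + 1) ≤ C * t ^ (k + 1)) : b ≤ t := by
  by_contra hc
  push Not at hc
  rcases ht.eq_or_lt with h0 | h0
  · have := h 0
    rw [← h0] at this hc
    simp at this
    linarith
  · have hr : 1 < b / t := by rw [lt_div_iff₀ h0]; linarith
    obtain ⟨k, hk⟩ := pow_unbounded_of_one_lt C hr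
    have h1 : (b / t) ^ (k + 1) ≤ C := by
      rw [div_pow, div_le_iff₀ (by positivity)]; exact h k
    have h2 : (b / t) ^ k ≤ (b / t) ^ (k + 1) := pow_le_pow_right₀ hr.le (Nat.le_succ k)
    linarith

theorem balanced_rpow {α : ℝ} (hα : 0 < α)
    (hw : ∃ C : ℝ, ∀ (ι : Type) [Fintype ι] [DecidableEq ι] (f : Cube ι → ℤˣ),
      lin f ≤ C * (deg f : ℝ) ^ α) (f : Cube ι → ℤˣ) (h0 : coeff f ∅ = 0) :
    lin f ≤ (deg f : ℝ) ^ α := by
  obtain ⟨C, hC⟩ := hw
  apply root_lemma (C := max C 0) (by positivity)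
  intro k
  obtain ⟨κ, i1, i2, h, a1, a2, a3⟩ := pow_comp f h0 k
  have h2 : (deg h : ℝ) ≤ (deg f : ℝ) ^ (k + 1) := by exact_mod_cast a2
  have h3 : (deg h : ℝ) ^ α ≤ ((deg f : ℝ) ^ α) ^ (k + 1) := by
    calc (deg h : ℝ) ^ α ≤ ((deg f : ℝ) ^ (k + 1)) ^ α :=
          Real.rpow_le_rpow (by positivity) h2 hα.le
      _ = ((deg f : ℝ) ^ α) ^ (k + 1) := by
          rw [← Real.rpow_natCast, ← Real.rpow_natCast, ← Real.rpow_mul (by positivity),
            ← Real.rpow_mul (by positivity), mul_comm]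
  rw [← a3]
  calc lin h ≤ C * (deg h : ℝ) ^ α := hC κ h
    _ ≤ max C 0 * (deg h : ℝ) ^ α :=
      mul_le_mul_of_nonneg_right (le_max_left _ _) (by positivity)
    _ ≤ _ := mul_le_mul_of_nonneg_left h3 (le_max_right _ _)

theorem expo_iff {α : ℝ} (hα : 0 < α) :
    (∃ C : ℝ, ∀ (ι : Type) [Fintype ι] [DecidableEq ι] (f : Cube ι → ℤˣ),
      lin f ≤ C * (deg f : ℝ) ^ α) ↔
    ∀ (ι : Type) [Fintype ι] [DecidableEq ι] (f : Cube ι → ℤˣ),
      lin f ≤ ((deg f : ℝ) + 1) ^ α := by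
  constructor
  · intro hw ι _ _ f
    obtain ⟨g, h1, h2, h3, _⟩ := exists_star f
    calc lin f ≤ lin g := h2
      _ ≤ (deg g : ℝ) ^ α := balanced_rpow hα hw g h1
      _ ≤ _ := Real.rpow_le_rpow (by positivity) (by exact_mod_cast h3) hα.le
  · intro h
    refine ⟨2 ^ α, ?_⟩
    intro ι _ _ f
    rcases Nat.eq_zero_or_pos (deg f) with hd | hd
    · rw [lin_eq_zero hd, hd]
      positivity
    · have hd' : (1 : ℝ) ≤ deg f := by exact_mod_cast hd
      refine (h ι f).trans ?_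
      rw [← Real.mul_rpow (by norm_num) (by positivity)]
      exact Real.rpow_le_rpow (by positivity) (by linarith) hα.le

theorem expo_odd {α : ℝ} (hα : 0 < α)
    (hw : ∃ C : ℝ, ∀ (ι : Type) [Fintype ι] [DecidableEq ι] (f : Cube ι → ℤˣ),
      lin f ≤ C * (deg f : ℝ) ^ α) (f : Cube ι → ℤˣ) (hf : Odd (deg f) ∨ coeff f ∅ = 0) :
    lin f ≤ (deg f : ℝ) ^ α := by
  rcases hf with hf | hf
  · obtain ⟨g, h1, h2, _, h4⟩ := exists_star f
    calc lin f ≤ lin g := h2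
      _ ≤ (deg g : ℝ) ^ α := balanced_rpow hα hw g h1
      _ ≤ _ := Real.rpow_le_rpow (by positivity) (by exact_mod_cast h4 hf) hα.le
  · exact balanced_rpow hα hw f hf

end Vale.Agent.P047
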