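import Vale.Agent.P047.Defs

open Finset

namespace Vale.Agent.P047

open Classical in
/-- The conjunction requiring `x_i = 1` for `i ∈ P` and `x_i = -1` for `i ∈ N`, as a `0/1`-valued
function; its width is `|P| + |N|`. -/
noncomputable def andf {ι : Type} (P N : Finset ι) (x : Cube ι) : ℝ :=
  if (∀ i ∈ P, x i = 1) ∧ (∀ i ∈ N, x i = -1) then 1 else 0

/-- Conical juntas of degree `d`: the nonnegative combinations of conjunctions of width at most
`d`. -/
inductive Junta {ι : Type} (d : ℕ) : (Cube ι → ℝ) → Prop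
  | base (P N : Finset ι) (h : P.card + N.card ≤ d) : Junta d (andf P N)
  | add (F G : Cube ι → ℝ) (hF : Junta d F) (hG : Junta d G) : Junta d (fun x => F x + G x)
  | smul (c : ℝ) (F : Cube ι → ℝ) (hc : 0 ≤ c) (hF : Junta d F) : Junta d (fun x => c * F x)

/-- Both `(1 + f) / 2` and `(1 - f) / 2` are conical juntas of degree `d`. -/
def TwoSided {ι : Type} (d : ℕ) (f : Cube ι → ℤˣ) : Prop :=
  Junta d (fun x => (1 + sgn (f x)) / 2) ∧ Junta d (fun x => (1 - sgn (f x)) / 2)

end Vale.Agent.P047
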