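import Vale.Agent.P047.Star
import Vale.Agent.P047.JuntaDefs

open Finset

namespace Vale.Agent.P047

variable {ι κ : Type}

theorem Junta.mono {d e : ℕ} (h : d ≤ e) {F : Cube ι → ℝ} (hF : Junta d F) : Junta e F := by
  induction hF with
  | base P N hw => exact Junta.base P N (hw.trans h)
  | add F G _ _ ihF ihG => exact Junta.add F G ihF ihG
  | smul c F hc _ ih => exact Junta.smul c F hc ih

theorem andf_mul [DecidableEq ι] (P N P' N' : Finset ι) (x : Cube ι) :
    andf P N x * andf P' N' x = andf (P ∪ P') (N ∪ N') x := by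
  classical
  unfold andf
  by_cases h1 : (∀ i ∈ P, x i = 1) ∧ (∀ i ∈ N, x i = -1)
  · by_cases h2 : (∀ i ∈ P', x i = 1) ∧ (∀ i ∈ N', x i = -1)
    · rw [if_pos h1, if_pos h2, if_pos, one_mul]
      refine ⟨fun i hi => ?_, fun i hi => ?_⟩
      · rcases Finset.mem_union.mp hi with h | h
        · exact h1.1 i h
        · exact h2.1 i h
      · rcases Finset.mem_union.mp hi with h | h
        · exact h1.2 i h
        · exact h2.2 i h
    · rw [if_neg h2, mul_zero, if_neg]
      rintro ⟨a, b⟩
      exact h2 ⟨fun i hi => a i (Finset.mem_union_right _ hi),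
        fun i hi => b i (Finset.mem_union_right _ hi)⟩
  · rw [if_neg h1, zero_mul, if_neg]
    rintro ⟨a, b⟩
    exact h1 ⟨fun i hi => a i (Finset.mem_union_left _ hi),
      fun i hi => b i (Finset.mem_union_left _ hi)⟩

theorem Junta.mul [DecidableEq ι] {d e : ℕ} {F G : Cube ι → ℝ} (hF : Junta d F)
    (hG : Junta e G) : Junta (d + e) (fun x => F x * G x) := by
  induction hF with
  | base P N hw =>
    induction hG with
    | base P' N' hw' =>
      have : (fun x => andf P N x * andf P' N' x) = andf (P ∪ P') (N ∪ N') :=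
        funext fun x => andf_mul P N P' N' x
      rw [this]
      apply Junta.base
      have h1 := Finset.card_union_le P P'
      have h2 := Finset.card_union_le N N'
      omega
    | add F G _ _ ihF ihG =>
      have : (fun x => andf P N x * (F x + G x)) =
          fun x => andf P N x * F x + andf P N x * G x := funext fun x => mul_add _ _ _
      rw [this]
      exact Junta.add _ _ ihF ihG
    | smul c F hc _ ih =>
      have : (fun x => andf P N x * (c * F x)) = fun x => c * (andf P N x * F x) :=
        funext fun x => by ring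
      rw [this]
      exact Junta.smul c _ hc ih
  | add F' G' _ _ ihF ihG =>
    have : (fun x => (F' x + G' x) * G x) = fun x => F' x * G x + G' x * G x :=
      funext fun x => add_mul _ _ _
    rw [this]
    exact Junta.add _ _ ihF ihG
  | smul c F' hc _ ih =>
    have : (fun x => c * F' x * G x) = fun x => c * (F' x * G x) :=
      funext fun x => by ring
    rw [this]
    exact Junta.smul c _ hc ih

theorem Junta.one : Junta 0 (fun _ : Cube ι => (1 : ℝ)) := by
  have : (fun _ : Cube ι => (1 : ℝ)) = andf ∅ ∅ := by
    funext x; simp [andf]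
  rw [this]
  exact Junta.base ∅ ∅ (by simp)

/-- Substituting an injective renaming of the variables. -/
theorem Junta.lift [DecidableEq κ] {d : ℕ} {F : Cube ι → ℝ} (hF : Junta d F) (r : ι → κ) :
    Junta d (fun x : Cube κ => F fun i => x (r i)) := by
  induction hF with
  | base P N hw =>
    have : (fun x : Cube κ => andf P N fun i => x (r i)) = andf (P.image r) (N.image r) := by
      funext x
      unfold andf
      congr 1
      simp
    rw [this]
    apply Junta.base
    have h1 := Finset.card_image_le (s := P) (f := r)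
    have h2 := Finset.card_image_le (s := N) (f := r)
    omega
  | add F G _ _ ihF ihG => exact Junta.add _ _ ihF ihG
  | smul c F hc _ ih => exact Junta.smul c _ hc ih

theorem neg_one_mul_eq (u : ℤˣ) : (-1 * u = 1 ↔ u = -1) ∧ (-1 * u = -1 ↔ u = 1) := by
  rcases Int.units_eq_one_or u with h | h <;> subst h <;> decide

theorem Junta.neg {d : ℕ} {F : Cube ι → ℝ} (hF : Junta d F) :
    Junta d (fun x : Cube ι => F fun i => -1 * x i) := by
  induction hF with
  | base P N hw =>
    have : (fun x : Cube ι => andf P N fun i => -1 * x i) = andf N P := by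
      funext x
      unfold andf
      congr 1
      simp only [(neg_one_mul_eq _).1, (neg_one_mul_eq _).2]
      rw [and_comm]
    rw [this]
    exact Junta.base N P (by omega)
  | add F G _ _ ihF ihG => exact Junta.add _ _ ihF ihG
  | smul c F hc _ ih => exact Junta.smul c _ hc ih

theorem Junta.prod [DecidableEq ι] {e : ℕ} {α : Type} (S : Finset α) (G : α → Cube ι → ℝ)
    (hG : ∀ a, Junta e (G a)) : Junta (S.card * e) (fun x => ∏ a ∈ S, G a x) := by
  classical
  induction S using Finset.induction_on with
  | empty => simpa using (Junta.one (ι := ι))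
  | insert a S ha ih =>
    have : (fun x => ∏ b ∈ insert a S, G b x) = fun x => G a x * ∏ b ∈ S, G b x :=
      funext fun x => Finset.prod_insert ha
    rw [this, Finset.card_insert_of_notMem ha]
    exact ((hG a).mul ih).mono (by ring_nf; omega)

theorem andf_eq_prod [DecidableEq ι] (P N : Finset ι) (y : Cube ι) :
    andf P N y = (∏ i ∈ P, (1 + sgn (y i)) / 2) * ∏ i ∈ N, (1 - sgn (y i)) / 2 := by
  classical
  have h1 : ∀ u : ℤˣ, (1 + sgn u) / 2 = if u = 1 then 1 else 0 := by
    intro u
    rcases Int.units_eq_one_or u with h | h <;> subst h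
    · simp [sgn]
    · rw [if_neg (by decide)]; simp [sgn]
  have h2 : ∀ u : ℤˣ, (1 - sgn u) / 2 = if u = -1 then 1 else 0 := by
    intro u
    rcases Int.units_eq_one_or u with h | h <;> subst h
    · rw [if_neg (by decide)]; simp [sgn]
    · simp [sgn]
  simp only [h1, h2]
  rw [Finset.prod_boole, Finset.prod_boole, andf]
  by_cases a : ∀ i ∈ P, y i = 1
  · by_cases b : ∀ i ∈ N, y i = -1
    · rw [if_pos ⟨a, b⟩, if_pos a, if_pos b, one_mul]
    · rw [if_neg (fun h => b h.2), if_neg b, mul_zero]
  · rw [if_neg (fun h => a h.1), if_neg a, zero_mul]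

theorem Junta.comp [DecidableEq ι] [DecidableEq κ] {d e : ℕ} {F : Cube ι → ℝ} (hF : Junta d F)
    {g : Cube κ → ℤˣ} (hg : TwoSided e g) :
    Junta (d * e) (fun x : Cube (ι × κ) => F fun i => g fun j => x (i, j)) := by
  induction hF with
  | base P N hw =>
    have : (fun x : Cube (ι × κ) => andf P N fun i => g fun j => x (i, j)) =
        fun x => (∏ i ∈ P, (1 + sgn (g fun j => x (i, j))) / 2) *
          ∏ i ∈ N, (1 - sgn (g fun j => x (i, j))) / 2 := funext fun x => andf_eq_prod P N _
    rw [this]
    have h1 := Junta.prod P (fun i (x : Cube (ι × κ)) => (1 + sgn (g fun j => x (i, j))) / 2)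
      (fun i => hg.1.lift (fun j => (i, j)))
    have h2 := Junta.prod N (fun i (x : Cube (ι × κ)) => (1 - sgn (g fun j => x (i, j))) / 2)
      (fun i => hg.2.lift (fun j => (i, j)))
    refine (h1.mul h2).mono ?_
    rw [← add_mul]
    exact Nat.mul_le_mul_right _ hw
  | add F G _ _ ihF ihG => exact Junta.add _ _ ihF ihG
  | smul c F hc _ ih => exact Junta.smul c _ hc ih

theorem TwoSided.comp [DecidableEq ι] [DecidableEq κ] {d e : ℕ} {f : Cube ι → ℤˣ}
    {g : Cube κ → ℤˣ} (hf : TwoSided d f) (hg : TwoSided e g) :
    TwoSided (d * e) (Vale.Agent.P047.comp f g) :=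
  ⟨hf.1.comp hg, hf.2.comp hg⟩

end Vale.Agent.P047
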