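import Vale.Agent.P047.Comp

open Finset

namespace Vale.Agent.P047

variable {ι κ : Type} [Fintype ι] [DecidableEq ι] [Fintype κ] [DecidableEq κ]

theorem pow_comp (f : Cube ι → ℤˣ) (h0 : coeff f ∅ = 0) (k : ℕ) :
    ∃ (κ : Type) (_ : Fintype κ) (_ : DecidableEq κ) (h : Cube κ → ℤˣ),
      coeff h ∅ = 0 ∧ deg h ≤ deg f ^ (k + 1) ∧ lin h = lin f ^ (k + 1) := by
  induction k with
  | zero => exact ⟨ι, inferInstance, inferInstance, f, h0, by simp, by simp⟩
  | succ k ih =>
    obtain ⟨κ, i1, i2, h, a1, a2, a3⟩ := ih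
    refine ⟨ι × κ, inferInstance, inferInstance, comp f h, coeff_comp_empty f h h0 a1, ?_, ?_⟩
    · calc deg (comp f h) ≤ deg f * deg h := deg_comp f h
        _ ≤ deg f * deg f ^ (k + 1) := Nat.mul_le_mul_left _ a2
        _ = deg f ^ (k + 1 + 1) := by ring
    · rw [lin_comp f h a1, a3]; ring

theorem lin_eq_zero {f : Cube ι → ℤˣ} (h : deg f = 0) : lin f = 0 := by
  rw [lin]
  apply Finset.sum_eq_zero
  intro i _
  by_contra hc
  have := le_deg hc
  rw [h, Finset.card_singleton] at this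
  omega

theorem balanced_le (hw : Weak) (f : Cube ι → ℤˣ) (h0 : coeff f ∅ = 0) :
    lin f ≤ Real.sqrt (deg f) := by
  obtain ⟨C, hC⟩ := hw
  by_contra hcon
  push Not at hcon
  rcases Nat.eq_zero_or_pos (deg f) with hd | hd
  · rw [lin_eq_zero hd, hd] at hcon
    simp at hcon
  have hd' : (0 : ℝ) < deg f := by exact_mod_cast hd
  have hs : 0 < Real.sqrt (deg f) := Real.sqrt_pos.mpr hd'
  have hr : 1 < lin f / Real.sqrt (deg f) := by rw [lt_div_iff₀ hs]; linarith
  obtain ⟨k, hk⟩ := pow_unbounded_of_one_lt (max C 0) hr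
  obtain ⟨κ, i1, i2, h, a1, a2, a3⟩ := pow_comp f h0 k
  have h1 := hC κ h
  have h2 : Real.sqrt (deg h) ≤ Real.sqrt (deg f) ^ (k + 1) := by
    apply Real.sqrt_le_iff.mpr
    refine ⟨by positivity, ?_⟩
    rw [← pow_mul, mul_comm (k + 1) 2, pow_mul, Real.sq_sqrt hd'.le]
    exact_mod_cast a2
  have h3 : lin f ^ (k + 1) ≤ max C 0 * Real.sqrt (deg f) ^ (k + 1) := by
    rw [← a3]
    calc lin h ≤ C * Real.sqrt (deg h) := h1
      _ ≤ max C 0 * Real.sqrt (deg h) :=
        mul_le_mul_of_nonneg_right (le_max_left _ _) (Real.sqrt_nonneg _)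
      _ ≤ _ := mul_le_mul_of_nonneg_left h2 (le_max_right _ _)
  have h4 : (lin f / Real.sqrt (deg f)) ^ (k + 1) ≤ max C 0 := by
    rw [div_pow, div_le_iff₀ (by positivity)]; exact h3
  have h5 : (lin f / Real.sqrt (deg f)) ^ k ≤ (lin f / Real.sqrt (deg f)) ^ (k + 1) :=
    pow_le_pow_right₀ hr.le (Nat.le_succ k)
  linarith

/-- The odd extension `y f(y x)` of `f`. -/
def star (f : Cube ι → ℤˣ) : Cube (Option ι) → ℤˣ :=
  fun x => x none * f fun i => x none * x (some i)

def rest (U : Finset (Option ι)) : Finset ι := univ.filter fun i => some i ∈ U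

def ex (U : Finset (Option ι)) : ℕ := 1 + (if none ∈ U then 1 else 0) + (rest U).card

theorem chi_option (U : Finset (Option ι)) (x : Cube (Option ι)) :
    chi U x = (if none ∈ U then sgn (x none) else 1) * chi (rest U) (fun i => x (some i)) := by
  rw [chi_eq, Fintype.prod_option, chi_eq]
  congr 1
  apply Finset.prod_congr rfl
  intro i _
  simp [rest]

omit [Fintype ι] [DecidableEq ι] in
theorem chi_smul (S : Finset ι) (y : ℤˣ) (z : Cube ι) :
    chi S (fun i => y * z i) = sgn y ^ S.card * chi S z := by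
  rw [chi, chi]
  simp only [sgn_mul, Finset.prod_mul_distrib, Finset.prod_const]

theorem sum_smul (y : ℤˣ) (F : Cube ι → ℝ) : ∑ x : Cube ι, F (fun i => y * x i) = ∑ x, F x := by
  exact Fintype.sum_equiv (Equiv.mulLeft (fun _ : ι => y)) _ _ (fun x => rfl)

theorem inner_sum (f : Cube ι → ℤˣ) (U : Finset (Option ι)) (y : ℤˣ) :
    ∑ x : Cube ι, sgn (y * f fun i => y * x i) *
      ((if none ∈ U then sgn y else 1) * chi (rest U) x) =
      sgn y ^ ex U * ∑ z : Cube ι, sgn (f z) * chi (rest U) z := by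
  have h1 : ∀ x : Cube ι, sgn (y * f fun i => y * x i) *
      ((if none ∈ U then sgn y else 1) * chi (rest U) x) =
      sgn y ^ ex U * (fun z : Cube ι => sgn (f z) * chi (rest U) z) (fun i => y * x i) := by
    intro x
    simp only
    rw [chi_smul, sgn_mul, ex]
    have h2 : sgn y ^ (rest U).card * sgn y ^ (rest U).card = 1 := by
      rw [← mul_pow, sgn_mul_self, one_pow]
    by_cases hU : none ∈ U
    · simp only [hU, if_true]
      rw [pow_add, pow_add, pow_one]
      calc sgn y * sgn (f fun i => y * x i) * (sgn y * chi (rest U) x)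
          = sgn y * sgn y * (sgn (f fun i => y * x i) * chi (rest U) x) * 1 := by ring
        _ = _ := by rw [← h2]; ring
    · simp only [hU, if_false]
      rw [pow_add, pow_add, pow_one, pow_zero]
      linear_combination (-(sgn y * sgn (f fun i => y * x i) * chi (rest U) x)) * h2
  rw [Finset.sum_congr rfl fun x _ => h1 x, ← Finset.mul_sum,
    sum_smul y (fun z : Cube ι => sgn (f z) * chi (rest U) z)]

theorem coeff_star (f : Cube ι → ℤˣ) (U : Finset (Option ι)) :
    coeff (star f) U = (1 + (-1) ^ ex U) / 2 * coeff f (rest U) := by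
  have h1 : ∑ x : Cube (Option ι), sgn (star f x) * chi U x =
      ∑ y : ℤˣ, ∑ x : Cube ι, sgn (y * f fun i => y * x i) *
        ((if none ∈ U then sgn y else 1) * chi (rest U) x) := by
    rw [← Fintype.sum_prod_type']
    apply Fintype.sum_equiv (Equiv.piOptionEquivProd (β := fun _ => ℤˣ))
    intro x
    rw [chi_option]
    rfl
  rw [coeff, h1, Finset.sum_congr rfl fun y _ => inner_sum f U y, ← Finset.sum_mul]
  have h2 : ∑ y : ℤˣ, sgn y ^ ex U = 1 + (-1) ^ ex U := by
    have : (univ : Finset ℤˣ) = {1, -1} := rfl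
    rw [this, sum_pair (by decide)]
    simp [sgn]
  rw [h2, coeff, Fintype.card_option, pow_succ]
  field_simp

theorem card_option (U : Finset (Option ι)) :
    U.card = (if none ∈ U then 1 else 0) + (rest U).card := by
  have h1 : U.card = ∑ p : Option ι, if p ∈ U then 1 else 0 := by
    rw [Finset.sum_ite_mem, Finset.univ_inter, Finset.card_eq_sum_ones]
  rw [h1, Fintype.sum_option, rest, Finset.card_filter]

theorem coeff_star_ne {f : Cube ι → ℤˣ} {U : Finset (Option ι)} (h : coeff (star f) U ≠ 0) :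
    coeff f (rest U) ≠ 0 ∧ Even (ex U) := by
  rw [coeff_star] at h
  refine ⟨right_ne_zero_of_mul h, ?_⟩
  by_contra hc
  rw [Nat.not_even_iff_odd] at hc
  rw [hc.neg_one_pow] at h
  simp at h

theorem deg_star_le (f : Cube ι → ℤˣ) : deg (star f) ≤ deg f + 1 := by
  apply deg_le
  intro U hU
  have h1 := le_deg (coeff_star_ne hU).1
  rw [card_option]
  split_ifs <;> omega

theorem deg_star_odd (f : Cube ι → ℤˣ) (hf : Odd (deg f)) : deg (star f) ≤ deg f := by
  apply deg_le
  intro U hU
  have h1 := le_deg (coeff_star_ne hU).1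
  have h2 := (coeff_star_ne hU).2
  rw [card_option]
  obtain ⟨a, ha⟩ := hf
  obtain ⟨b, hb⟩ := h2
  rw [ex] at hb
  split_ifs at hb ⊢ <;> omega

theorem coeff_star_empty (f : Cube ι → ℤˣ) : coeff (star f) ∅ = 0 := by
  have h1 : rest (∅ : Finset (Option ι)) = ∅ := by simp [rest]
  have h2 : ex (∅ : Finset (Option ι)) = 1 := by simp [ex, h1]
  rw [coeff_star, h2]
  norm_num

theorem lin_star (f : Cube ι → ℤˣ) : lin (star f) = coeff f ∅ + lin f := by
  rw [lin, Fintype.sum_option, lin]
  congr 1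
  · have h1 : rest ({none} : Finset (Option ι)) = ∅ := by simp [rest]
    have h2 : ex ({none} : Finset (Option ι)) = 2 := by simp [ex, h1]
    rw [coeff_star, h2, h1]
    norm_num
  · apply Finset.sum_congr rfl
    intro i _
    have h1 : rest ({some i} : Finset (Option ι)) = {i} := by
      ext j; simp [rest]
    have h2 : ex ({some i} : Finset (Option ι)) = 2 := by simp [ex, h1]
    rw [coeff_star, h2, h1]
    norm_num

/-- The function `-f(-x)`. -/
def flip (f : Cube ι → ℤˣ) : Cube ι → ℤˣ := fun x => -f fun i => -1 * x i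

theorem coeff_flip (f : Cube ι → ℤˣ) (S : Finset ι) :
    coeff (flip f) S = -(-1) ^ S.card * coeff f S := by
  have h1 : ∀ x : Cube ι, sgn (flip f x) * chi S x =
      (fun z : Cube ι => -(-1) ^ S.card * (sgn (f z) * chi S z)) (fun i => -1 * x i) := by
    intro x
    simp only
    rw [chi_smul S (-1) x, flip]
    have h2 : sgn (-1) = -1 := by simp [sgn]
    have h3 : ∀ u : ℤˣ, sgn (-u) = -sgn u := by intro u; simp [sgn]
    have h4 : ((-1 : ℝ) ^ S.card) * (-1) ^ S.card = 1 := by
      rw [← mul_pow]; norm_num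
    rw [h2, h3]
    linear_combination (sgn (f fun i => -1 * x i) * chi S x) * h4
  rw [coeff, Finset.sum_congr rfl fun x _ => h1 x,
    sum_smul (-1) (fun z : Cube ι => -(-1) ^ S.card * (sgn (f z) * chi S z)),
    ← Finset.mul_sum, mul_div_assoc]
  rfl

theorem deg_flip (f : Cube ι → ℤˣ) : deg (flip f) ≤ deg f := by
  apply deg_le
  intro S hS
  rw [coeff_flip] at hS
  exact le_deg (right_ne_zero_of_mul hS)

theorem deg_flip' (f : Cube ι → ℤˣ) : deg f ≤ deg (flip f) := by
  apply deg_le
  intro S hS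
  apply le_deg
  rw [coeff_flip]
  exact mul_ne_zero (neg_ne_zero.mpr (pow_ne_zero _ (by norm_num))) hS

theorem lin_flip (f : Cube ι → ℤˣ) : lin (flip f) = lin f := by
  rw [lin, lin]
  apply Finset.sum_congr rfl
  intro i _
  rw [coeff_flip, Finset.card_singleton]
  norm_num

theorem exists_star (f : Cube ι → ℤˣ) : ∃ g : Cube (Option ι) → ℤˣ, coeff g ∅ = 0 ∧
    lin f ≤ lin g ∧ deg g ≤ deg f + 1 ∧ (Odd (deg f) → deg g ≤ deg f) := by
  rcases le_total 0 (coeff f ∅) with h | h
  · exact ⟨star f, coeff_star_empty f, by rw [lin_star]; linarith, deg_star_le f,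
      deg_star_odd f⟩
  · have hd : deg (flip f) = deg f := le_antisymm (deg_flip f) (deg_flip' f)
    refine ⟨star (flip f), coeff_star_empty _, ?_, ?_, ?_⟩
    · rw [lin_star, lin_flip, coeff_flip]
      simp
      exact h
    · rw [← hd]; exact deg_star_le _
    · intro ho
      rw [← hd] at ho ⊢
      exact deg_star_odd _ ho

theorem weak_iff : Weak ↔ ∀ (ι : Type) [Fintype ι] [DecidableEq ι] (f : Cube ι → ℤˣ),
    lin f ≤ Real.sqrt (deg f + 1) := by
  constructor
  · intro hw ι _ _ f
    obtain ⟨g, h1, h2, h3, _⟩ := exists_star f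
    calc lin f ≤ lin g := h2
      _ ≤ Real.sqrt (deg g) := balanced_le hw g h1
      _ ≤ _ := Real.sqrt_le_sqrt (by exact_mod_cast h3)
  · intro h
    refine ⟨2, ?_⟩
    intro ι _ _ f
    rcases Nat.eq_zero_or_pos (deg f) with hd | hd
    · rw [lin_eq_zero hd, hd]; simp
    · have hd' : (1 : ℝ) ≤ deg f := by exact_mod_cast hd
      refine (h ι f).trans ?_
      apply Real.sqrt_le_iff.mpr
      refine ⟨by positivity, ?_⟩
      rw [mul_pow, Real.sq_sqrt (by linarith)]
      linarith

theorem weak_odd (hw : Weak) (f : Cube ι → ℤˣ) (hf : Odd (deg f) ∨ coeff f ∅ = 0) :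
    lin f ≤ Real.sqrt (deg f) := by
  rcases hf with hf | hf
  · obtain ⟨g, h1, h2, _, h4⟩ := exists_star f
    calc lin f ≤ lin g := h2
      _ ≤ Real.sqrt (deg g) := balanced_le hw g h1
      _ ≤ _ := Real.sqrt_le_sqrt (by exact_mod_cast h4 hf)
  · exact balanced_le hw f hf

end Vale.Agent.P047
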