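import Vale.Agent.P047.Bias

open Finset

namespace Vale.Agent.P047

variable {ι : Type} [Fintype ι] [DecidableEq ι]

theorem pow_two_sided {d : ℕ} (f : Cube ι → ℤˣ) (h0 : coeff f ∅ = 0) (hf : TwoSided d f)
    (k : ℕ) :
    ∃ (κ : Type) (_ : Fintype κ) (_ : DecidableEq κ) (h : Cube κ → ℤˣ),
      coeff h ∅ = 0 ∧ TwoSided (d ^ (k + 1)) h ∧ lin h = lin f ^ (k + 1) := by
  induction k with
  | zero => exact ⟨ι, inferInstance, inferInstance, f, h0, by simpa using hf, by simp⟩
  | succ k ih =>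
    obtain ⟨κ, i1, i2, h, a1, a2, a3⟩ := ih
    refine ⟨ι × κ, inferInstance, inferInstance, comp f h, coeff_comp_empty f h h0 a1, ?_, ?_⟩
    · have := hf.comp a2
      rw [pow_succ' d (k + 1)]
      exact this
    · rw [lin_comp f h a1, a3]; ring

theorem junta_const {F : Cube ι → ℝ} (hF : Junta 0 F) : ∃ c : ℝ, ∀ x, F x = c := by
  induction hF with
  | base P N hw =>
    have hP : P = ∅ := Finset.card_eq_zero.mp (by omega)
    have hN : N = ∅ := Finset.card_eq_zero.mp (by omega)
    exact ⟨1, fun x => by rw [hP, hN]; simp [andf]⟩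
  | add F G _ _ ihF ihG =>
    obtain ⟨a, ha⟩ := ihF
    obtain ⟨b, hb⟩ := ihG
    exact ⟨a + b, fun x => by show F x + G x = a + b; rw [ha, hb]⟩
  | smul c F _ _ ih =>
    obtain ⟨a, ha⟩ := ih
    exact ⟨c * a, fun x => by show c * F x = c * a; rw [ha]⟩

theorem lin_const {f : Cube ι → ℤˣ} {c : ℝ} (h : ∀ x, (1 + sgn (f x)) / 2 = c) : lin f = 0 := by
  rw [lin]
  apply Finset.sum_eq_zero
  intro i _
  have h1 : ∀ x, sgn (f x) = 2 * c - 1 := fun x => by linarith [h x]
  have h3 := sum_chi ({i} : Finset ι)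
  rw [if_neg (Finset.singleton_ne_empty i)] at h3
  rw [coeff, Finset.sum_congr rfl fun x _ => by rw [h1 x], ← Finset.mul_sum, mul_div_assoc, h3,
    mul_zero]

theorem two_balanced {d : ℕ} {f : Cube ι → ℤˣ} (hf : TwoSided d f) (h0 : coeff f ∅ = 0) :
    lin f ≤ Real.sqrt d := by
  rcases Nat.eq_zero_or_pos d with hd | hd
  · subst hd
    obtain ⟨c, hc⟩ := junta_const hf.1
    rw [lin_const hc]; simp
  by_contra hcon
  push Not at hcon
  have hd' : (1 : ℝ) ≤ d := by exact_mod_cast hd
  have hs : 0 < Real.sqrt d := Real.sqrt_pos.mpr (by linarith)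
  have hr : 1 < lin f / Real.sqrt d := by rw [lt_div_iff₀ hs]; linarith
  obtain ⟨k, hk⟩ := pow_unbounded_of_one_lt 8 hr
  obtain ⟨κ, i1, i2, h, a1, a2, a3⟩ := pow_two_sided f h0 hf k
  have h1 := one_sided a2.1
  have hD : (1 : ℝ) ≤ (d : ℝ) ^ (k + 1) := one_le_pow₀ hd'
  have h2 : Real.sqrt (2 * (d ^ (k + 1) : ℕ) + 2) ≤ 2 * Real.sqrt d ^ (k + 1) := by
    apply Real.sqrt_le_iff.mpr
    refine ⟨by positivity, ?_⟩
    rw [mul_pow, ← pow_mul, mul_comm (k + 1) 2, pow_mul, Real.sq_sqrt (by linarith)]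
    push_cast
    linarith
  have h3 : lin f ^ (k + 1) ≤ 8 * Real.sqrt d ^ (k + 1) := by
    rw [← a3]; linarith
  have h4 : (lin f / Real.sqrt d) ^ (k + 1) ≤ 8 := by
    rw [div_pow, div_le_iff₀ (by positivity)]; exact h3
  have h5 : (lin f / Real.sqrt d) ^ k ≤ (lin f / Real.sqrt d) ^ (k + 1) :=
    pow_le_pow_right₀ hr.le (Nat.le_succ k)
  linarith

omit [Fintype ι] in
theorem star_junta {d : ℕ} {F G : Cube ι → ℝ} (hF : Junta d F) (hG : Junta d G) :
    Junta (d + 1) (fun x : Cube (Option ι) => andf {none} ∅ x * F (fun i => x (some i)) +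
      andf ∅ {none} x * G (fun i => -1 * x (some i))) := by
  have b1 : Junta 1 (andf {none} ∅ : Cube (Option ι) → ℝ) := Junta.base _ _ (by simp)
  have b2 : Junta 1 (andf ∅ {none} : Cube (Option ι) → ℝ) := Junta.base _ _ (by simp)
  have c1 := b1.mul (hF.lift (some : ι → Option ι))
  have c2 := b2.mul (hG.neg.lift (some : ι → Option ι))
  exact (Junta.add _ _ c1 c2).mono (by omega)

omit [Fintype ι] in
theorem TwoSided.star {d : ℕ} {f : Cube ι → ℤˣ} (hf : TwoSided d f) :
    TwoSided (d + 1) (Vale.Agent.P047.star f) := by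
  constructor
  · have h := star_junta hf.1 hf.2
    have e : (fun x : Cube (Option ι) => (1 + sgn (Vale.Agent.P047.star f x)) / 2) =
        (fun x : Cube (Option ι) => andf {none} ∅ x * ((1 + sgn (f fun i => x (some i))) / 2) +
        andf ∅ {none} x * ((1 - sgn (f fun i => -1 * x (some i))) / 2)) := by
      funext x
      unfold Vale.Agent.P047.star andf
      rcases Int.units_eq_one_or (x none) with h | h
      · simp [h, show (1 : ℤˣ) ≠ -1 by decide]
      · simp [h, show (-1 : ℤˣ) ≠ 1 by decide, sgn]; ring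
    rw [e]; exact h
  · have h := star_junta hf.2 hf.1
    have e : (fun x : Cube (Option ι) => (1 - sgn (Vale.Agent.P047.star f x)) / 2) =
        (fun x : Cube (Option ι) => andf {none} ∅ x * ((1 - sgn (f fun i => x (some i))) / 2) +
        andf ∅ {none} x * ((1 + sgn (f fun i => -1 * x (some i))) / 2)) := by
      funext x
      unfold Vale.Agent.P047.star andf
      rcases Int.units_eq_one_or (x none) with h | h
      · simp [h, show (1 : ℤˣ) ≠ -1 by decide]
      · simp [h, show (-1 : ℤˣ) ≠ 1 by decide, sgn]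
    rw [e]; exact h

omit [Fintype ι] [DecidableEq ι] in
theorem TwoSided.flip {d : ℕ} {f : Cube ι → ℤˣ} (hf : TwoSided d f) :
    TwoSided d (Vale.Agent.P047.flip f) := by
  have h3 : ∀ u : ℤˣ, sgn (-u) = -sgn u := by intro u; simp [sgn]
  constructor
  · have h := hf.2.neg
    have e : (fun x : Cube ι => (1 + sgn (Vale.Agent.P047.flip f x)) / 2) =
        (fun x : Cube ι => (1 - sgn (f fun i => -1 * x i)) / 2) := by
      funext x
      rw [Vale.Agent.P047.flip, h3]; ring
    rw [e]; exact h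
  · have h := hf.1.neg
    have e : (fun x : Cube ι => (1 - sgn (Vale.Agent.P047.flip f x)) / 2) =
        (fun x : Cube ι => (1 + sgn (f fun i => -1 * x i)) / 2) := by
      funext x
      rw [Vale.Agent.P047.flip, h3]; ring
    rw [e]; exact h

theorem two_general {d : ℕ} {f : Cube ι → ℤˣ} (hf : TwoSided d f) :
    lin f ≤ Real.sqrt (d + 1) := by
  have key : ∀ g : Cube ι → ℤˣ, TwoSided d g → 0 ≤ coeff g ∅ → lin g ≤ Real.sqrt (d + 1) := by
    intro g hg h
    have h1 := two_balanced hg.star (coeff_star_empty g)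
    rw [lin_star] at h1
    push_cast at h1
    linarith
  rcases le_total 0 (coeff f ∅) with h | h
  · exact key f hf h
  · rw [← lin_flip]
    apply key _ hf.flip
    rw [coeff_flip]
    simp
    exact h

end Vale.Agent.P047
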