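import Vale.Agent.P047.JuntaDefs

open Finset

namespace Vale.Agent.P047

/-- `F = ∑_j c_j [P_j, N_j]` with nonnegative coefficients, where `[P, N]` is the conjunction
requiring `x_i = 1` for `i ∈ P` and `x_i = -1` for `i ∈ N`, and `P_j, N_j` are disjoint. -/
def IsDecomp {ι J : Type} [Fintype J] (F : Cube ι → ℝ) (c : J → ℝ) (P N : J → Finset ι) : Prop :=
  (∀ j, 0 ≤ c j) ∧ (∀ j, Disjoint (P j) (N j)) ∧ ∀ x, F x = ∑ j, c j * andf (P j) (N j) x

/-- The expected width `∑_j c_j Pr[X satisfies the j-th conjunction] (|P_j| + |N_j|)`, `X` uniform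
on the cube (the conjunction has probability `2^{-(|P_j| + |N_j|)}`). -/
noncomputable def expWidth {ι J : Type} [Fintype J] (c : J → ℝ) (P N : J → Finset ι) : ℝ :=
  ∑ j, c j * (1 / 2) ^ ((P j).card + (N j).card) * (((P j).card : ℝ) + (N j).card)

end Vale.Agent.P047
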