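import Vale.Agent.P047.TwoSided
import Vale.Agent.P047.WidthDefs

open Finset

namespace Vale.Agent.P047

theorem exp_le {x : ℝ} (hx : |x| ≤ 1 / 5) : Real.exp (x - 2 * x ^ 2) ≤ 1 + x := by
  have h1 := abs_le.mp hx
  have hx2 : x ^ 2 ≤ 1 / 25 := by nlinarith
  have hy : |x - 2 * x ^ 2| ≤ 1 := by
    rw [abs_le]; constructor <;> nlinarith [sq_nonneg x]
  have h2 := (abs_le.mp (Real.abs_exp_sub_one_sub_id_le hy)).2
  have h3 : (x - 2 * x ^ 2) ^ 2 ≤ 2 * x ^ 2 := by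
    have : (x - 2 * x ^ 2) ^ 2 = x ^ 2 * (1 - 2 * x) ^ 2 := by ring
    rw [this]
    have h4 : (1 - 2 * x) ^ 2 ≤ 2 := by nlinarith
    nlinarith [sq_nonneg x]
  linarith

theorem pn_lower (p q : ℕ) {δ : ℝ} (hδ : |δ| ≤ 1 / 5) :
    1 + ((p : ℝ) - q) * δ - 2 * ((p : ℝ) + q) * δ ^ 2 ≤ (1 + δ) ^ p * (1 - δ) ^ q := by
  have h1 := exp_le hδ
  have h2 := exp_le (x := -δ) (by rwa [abs_neg])
  have h3 : Real.exp (δ - 2 * δ ^ 2) ^ p ≤ (1 + δ) ^ p :=
    pow_le_pow_left₀ (Real.exp_pos _).le h1 p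
  have h4 : Real.exp (-δ - 2 * (-δ) ^ 2) ^ q ≤ (1 + -δ) ^ q :=
    pow_le_pow_left₀ (Real.exp_pos _).le h2 q
  have h5 : Real.exp (δ - 2 * δ ^ 2) ^ p * Real.exp (-δ - 2 * (-δ) ^ 2) ^ q =
      Real.exp (((p : ℝ) - q) * δ - 2 * ((p : ℝ) + q) * δ ^ 2) := by
    rw [← Real.exp_nat_mul, ← Real.exp_nat_mul, ← Real.exp_add]
    congr 1; ring
  have h6 := Real.add_one_le_exp (((p : ℝ) - q) * δ - 2 * ((p : ℝ) + q) * δ ^ 2)
  have hpos : 0 ≤ 1 + δ := by have := (abs_le.mp hδ).1; linarith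
  have h7 : Real.exp (δ - 2 * δ ^ 2) ^ p * Real.exp (-δ - 2 * (-δ) ^ 2) ^ q ≤
      (1 + δ) ^ p * (1 + -δ) ^ q :=
    mul_le_mul h3 h4 (by positivity) (by positivity)
  rw [h5] at h7
  have e : (1 : ℝ) + -δ = 1 - δ := by ring
  rw [e] at h7
  linarith

variable {ι J : Type} [Fintype ι] [DecidableEq ι] [Fintype J]

theorem Eb_sum (δ : ℝ) (c : J → ℝ) (G : J → Cube ι → ℝ) :
    Eb δ (fun x => ∑ j, c j * G j x) = ∑ j, c j * Eb δ (G j) := by
  simp only [Eb, Finset.mul_sum]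
  rw [Finset.sum_comm]
  exact Finset.sum_congr rfl fun j _ => Finset.sum_congr rfl fun x _ => by ring

theorem L1_sum (c : J → ℝ) (G : J → Cube ι → ℝ) :
    L1 (fun x => ∑ j, c j * G j x) = ∑ j, c j * L1 (G j) := by
  unfold L1
  have h : ∀ i : ι, (∑ x : Cube ι, (∑ j, c j * G j x) * sgn (x i)) / 2 ^ Fintype.card ι =
      ∑ j, c j * ((∑ x : Cube ι, G j x * sgn (x i)) / 2 ^ Fintype.card ι) := by
    intro i
    have h1 : ∑ x : Cube ι, (∑ j, c j * G j x) * sgn (x i) =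
        ∑ j, c j * ∑ x : Cube ι, G j x * sgn (x i) := by
      simp only [Finset.sum_mul, Finset.mul_sum]
      rw [Finset.sum_comm]
      exact Finset.sum_congr rfl fun j _ => Finset.sum_congr rfl fun x _ => by ring
    rw [h1, Finset.sum_div]
    exact Finset.sum_congr rfl fun j _ => mul_div_assoc _ _ _
  rw [Finset.sum_congr rfl fun i _ => h i, Finset.sum_comm]
  exact Finset.sum_congr rfl fun j _ => (Finset.mul_sum _ _ _).symm

/-- One side of the estimate. -/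
theorem side {F : Cube ι → ℝ} {c : J → ℝ} {P N : J → Finset ι} (h : IsDecomp F c P N) {δ : ℝ}
    (hδ : |δ| ≤ 1 / 5) :
    Eb 0 F + δ * L1 F - 2 * δ ^ 2 * expWidth c P N ≤ Eb δ F := by
  obtain ⟨hc, hd, hF⟩ := h
  have e : F = fun x => ∑ j, c j * andf (P j) (N j) x := funext hF
  rw [e, Eb_sum, Eb_sum, L1_sum, expWidth, Finset.mul_sum, Finset.mul_sum, ← Finset.sum_add_distrib,
    ← Finset.sum_sub_distrib]
  apply Finset.sum_le_sum
  intro j _
  rw [Eb_andf _ _ _ (hd j), Eb_andf _ _ _ (hd j), L1_andf _ _ (hd j)]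
  have h1 := pn_lower (P j).card (N j).card hδ
  have hW : (0 : ℝ) ≤ c j * (1 / 2) ^ ((P j).card + (N j).card) :=
    mul_nonneg (hc j) (by positivity)
  have h2 := mul_le_mul_of_nonneg_left h1 hW
  have e1 : c j * (((1 + δ) / 2) ^ (P j).card * ((1 - δ) / 2) ^ (N j).card) =
      c j * (1 / 2) ^ ((P j).card + (N j).card) *
        ((1 + δ) ^ (P j).card * (1 - δ) ^ (N j).card) := by
    rw [show (1 + δ) / 2 = 1 / 2 * (1 + δ) by ring, show (1 - δ) / 2 = 1 / 2 * (1 - δ) by ring,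
      mul_pow, mul_pow, pow_add]
    ring
  rw [e1]
  refine le_trans (le_of_eq ?_) h2
  rw [pow_add]
  ring

theorem Eb_le_one {F : Cube ι → ℝ} (hF : ∀ x, F x ≤ 1) {δ : ℝ} (hδ : |δ| ≤ 1) : Eb δ F ≤ 1 := by
  have hd := abs_le.mp hδ
  have hle : ∀ x : Cube ι, (∏ i, (1 + δ * sgn (x i)) / 2) * F x ≤
      ∏ i, (1 + δ * sgn (x i)) / 2 := by
    intro x
    have hnn : 0 ≤ ∏ i, (1 + δ * sgn (x i)) / 2 := by
      apply Finset.prod_nonneg
      intro i _
      rcases Int.units_eq_one_or (x i) with h | h <;> rw [h]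
      · rw [sgn_one]; linarith
      · rw [sgn_neg_one]; linarith
    exact mul_le_of_le_one_right hnn (hF x)
  refine (Finset.sum_le_sum fun x _ => hle x).trans ?_
  rw [sum_prod (fun _ u => (1 + δ * sgn u) / 2)]
  apply le_of_eq
  apply Finset.prod_eq_one
  intro i _
  rw [sum_units, sgn_one, sgn_neg_one]; ring

theorem Eb_const (δ : ℝ) : Eb δ (fun _ : Cube ι => (1 : ℝ)) = 1 := by
  unfold Eb
  simp only [mul_one]
  rw [sum_prod (fun _ u => (1 + δ * sgn u) / 2)]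
  apply Finset.prod_eq_one
  intro i _
  rw [sum_units, sgn_one, sgn_neg_one]; ring

theorem L1_const : L1 (fun _ : Cube ι => (1 : ℝ)) = 0 := by
  unfold L1
  apply Finset.sum_eq_zero
  intro i _
  have h3 := sum_chi ({i} : Finset ι)
  rw [if_neg (Finset.singleton_ne_empty i)] at h3
  rw [← h3]
  congr 1
  apply Finset.sum_congr rfl
  intro x _
  simp [chi]

theorem L1_half (f : Cube ι → ℤˣ) : L1 (fun x => (1 + sgn (f x)) / 2) = lin f / 2 := by
  have e : (fun x : Cube ι => (1 + sgn (f x)) / 2) =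
      fun x => (1 / 2) * (fun _ : Cube ι => (1 : ℝ)) x + (1 / 2) * sgn (f x) := by
    funext x; ring
  have h2 : L1 (fun x : Cube ι => sgn (f x)) = lin f := by
    unfold L1 lin coeff
    apply Finset.sum_congr rfl
    intro i _
    congr 1
    apply Finset.sum_congr rfl
    intro x _
    simp [chi]
  rw [e, L1_add (fun x : Cube ι => (1 / 2) * (fun _ : Cube ι => (1 : ℝ)) x)
    (fun x => (1 / 2) * sgn (f x)), L1_smul, L1_smul, L1_const, h2]
  ring

theorem avg_bound {f : Cube ι → ℤˣ} {J' : Type} [Fintype J'] {c : J → ℝ} {P N : J → Finset ι}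
    {c' : J' → ℝ} {P' N' : J' → Finset ι}
    (h1 : IsDecomp (fun x => (1 + sgn (f x)) / 2) c P N)
    (h2 : IsDecomp (fun x => (1 - sgn (f x)) / 2) c' P' N') {δ : ℝ} (h0 : 0 < δ)
    (hδ : δ ≤ 1 / 5) :
    lin f ≤ 1 / δ + 2 * δ * (expWidth c P N + expWidth c' P' N') := by
  have a1 : |δ| ≤ 1 / 5 := by rw [abs_of_pos h0]; exact hδ
  have a2 : |-δ| ≤ 1 / 5 := by rwa [abs_neg]
  have s1 := side h1 a1
  have s2 := side h2 a2
  have b1 : Eb δ (fun x : Cube ι => (1 + sgn (f x)) / 2) ≤ 1 := by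
    apply Eb_le_one _ (by linarith)
    intro x
    rcases Int.units_eq_one_or (f x) with h | h <;> rw [h]
    · rw [sgn_one]; norm_num
    · rw [sgn_neg_one]; norm_num
  have b2 : Eb (-δ) (fun x : Cube ι => (1 - sgn (f x)) / 2) ≤ 1 := by
    apply Eb_le_one _ (by linarith)
    intro x
    rcases Int.units_eq_one_or (f x) with h | h <;> rw [h]
    · rw [sgn_one]; norm_num
    · rw [sgn_neg_one]; norm_num
  have e : (fun _ : Cube ι => (1 : ℝ)) =
      fun x => (fun x : Cube ι => (1 + sgn (f x)) / 2) x +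
        (fun x : Cube ι => (1 - sgn (f x)) / 2) x := by
    funext x; ring
  have c1 : Eb 0 (fun x : Cube ι => (1 + sgn (f x)) / 2) +
      Eb 0 (fun x : Cube ι => (1 - sgn (f x)) / 2) = 1 := by
    rw [← Eb_add, ← e, Eb_const]
  have c2 : L1 (fun x : Cube ι => (1 + sgn (f x)) / 2) +
      L1 (fun x : Cube ι => (1 - sgn (f x)) / 2) = 0 := by
    rw [← L1_add, ← e, L1_const]
  have c3 := L1_half f
  have key : δ * lin f ≤ 1 + 2 * δ ^ 2 * (expWidth c P N + expWidth c' P' N') := by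
    have c4 : L1 (fun x : Cube ι => (1 - sgn (f x)) / 2) = -(lin f / 2) := by linarith
    rw [c3] at s1
    rw [c4] at s2
    have : (-δ) ^ 2 = δ ^ 2 := by ring
    rw [this] at s2
    linarith
  have : 1 / δ + 2 * δ * (expWidth c P N + expWidth c' P' N') =
      (1 + 2 * δ ^ 2 * (expWidth c P N + expWidth c' P' N')) / δ := by
    field_simp
  rw [this, le_div_iff₀ h0]
  linarith

theorem avg_sqrt {f : Cube ι → ℤˣ} {J' : Type} [Fintype J'] {c : J → ℝ} {P N : J → Finset ι}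
    {c' : J' → ℝ} {P' N' : J' → Finset ι}
    (h1 : IsDecomp (fun x => (1 + sgn (f x)) / 2) c P N)
    (h2 : IsDecomp (fun x => (1 - sgn (f x)) / 2) c' P' N') {D : ℝ} (hD : 13 ≤ D)
    (hW : expWidth c P N + expWidth c' P' N' ≤ D) :
    lin f ≤ 2 * Real.sqrt (2 * D) := by
  have hs : 0 < Real.sqrt (2 * D) := Real.sqrt_pos.mpr (by linarith)
  have hs5 : 5 ≤ Real.sqrt (2 * D) := by
    apply Real.le_sqrt_of_sq_le; linarith
  have hsq : Real.sqrt (2 * D) ^ 2 = 2 * D := Real.sq_sqrt (by linarith)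
  have h := avg_bound h1 h2 (δ := 1 / Real.sqrt (2 * D)) (by positivity)
    (one_div_le_one_div_of_le (by norm_num) hs5)
  have h3 : 2 * (1 / Real.sqrt (2 * D)) * (expWidth c P N + expWidth c' P' N') ≤
      Real.sqrt (2 * D) := by
    have : 2 * (1 / Real.sqrt (2 * D)) * (expWidth c P N + expWidth c' P' N') =
        2 * (expWidth c P N + expWidth c' P' N') / Real.sqrt (2 * D) := by ring
    rw [this, div_le_iff₀ hs, ← pow_two, hsq]
    linarith
  rw [one_div_one_div] at h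
  linarith

end Vale.Agent.P047
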